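import Mathlib

/-!
Cyclic extensions generated by roots of unity, in characteristic `p`.
-/

open Module Polynomial TensorProduct

namespace Vale.Agent.P011.H388.Odd

/-- `L / K` is the cyclic extension of degree `m` with generator `σ` generated by the roots of
`X ^ (p ^ a) - X`, and `ω` generates the multiplicative group of these roots. -/
structure Const (p a : ℕ) (K L : Type) [Field K] [Field L] [Algebra K L] (σ : L ≃ₐ[K] L)
    (m : ℕ) (ω : L) : Prop where
  prime : p.Prime
  char : CharP K p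
  apos : 0 < a
  fin : FiniteDimensional K L
  gal : IsGalois K L
  pos : 0 < m
  rank : finrank K L = m
  ord : orderOf σ = m
  gen : ∀ τ : L ≃ₐ[K] L, ∃ i < m, τ = σ ^ i
  fix : ∀ x : L, σ x = x → ∃ c : K, algebraMap K L c = x
  split : (X ^ p ^ a - X : L[X]).Splits
  ωp : ω ^ p ^ a = ω
  ωg : ∀ x : L, x ^ p ^ a = x → x ≠ 0 → ∃ j : ℕ, x = ω ^ j
  adj : Algebra.adjoin K {ω} = ⊤

section cyc

variable {p a : ℕ} {L : Type} [Field L]

/-- The finite field of the roots of `X ^ (p ^ a) - X`. -/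
def cst (p a : ℕ) (hp : p.Prime) (L : Type) [Field L] [CharP L p] : Subfield L :=
  have : Fact p.Prime := ⟨hp⟩
  (iterateFrobenius L p a).eqLocusField (RingHom.id L)

theorem mem_cst (hp : p.Prime) [CharP L p] {x : L} : x ∈ cst p a hp L ↔ x ^ p ^ a = x := by
  have : Fact p.Prime := ⟨hp⟩
  change iterateFrobenius L p a x = x ↔ _
  rw [iterateFrobenius_def]

theorem finite_cst (hp : p.Prime) [CharP L p] (ha : 0 < a) : Finite (cst p a hp L) := by
  have h1 : 1 < p ^ a := one_lt_pow₀ hp.one_lt ha.ne'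
  have hP0 : (X ^ p ^ a - X : L[X]) ≠ 0 := FiniteField.X_pow_card_sub_X_ne_zero L h1
  refine Set.Finite.to_subtype ((X ^ p ^ a - X : L[X]).rootSet_finite L |>.subset ?_)
  intro x hx
  rw [mem_rootSet]
  refine ⟨hP0, ?_⟩
  rw [map_sub, map_pow, aeval_X, sub_eq_zero]
  exact (mem_cst hp).mp hx

end cyc

theorem map_poly {K L : Type} [Field K] [Field L] [Algebra K L] (p a : ℕ) :
    (X ^ p ^ a - X : K[X]).map (algebraMap K L) = X ^ p ^ a - X := by
  rw [Polynomial.map_sub, Polynomial.map_pow, map_X]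

theorem ext_of_adj {K L : Type} [Field K] [Field L] [Algebra K L] {ω : L}
    (hadj : Algebra.adjoin K {ω} = ⊤) {τ ρ : L ≃ₐ[K] L} (h : τ ω = ρ ω) : τ = ρ := by
  have h2 : (τ : L →ₐ[K] L) = (ρ : L →ₐ[K] L) := by
    refine AlgHom.ext_of_adjoin_eq_top hadj fun x hx => ?_
    rw [Set.mem_singleton_iff.mp hx]
    exact h
  exact AlgEquiv.coe_toAlgHom_injective h2

/-- The finite field of the roots, over the prime field. -/
def cstF (p a : ℕ) [hp : Fact p.Prime] (L : Type) [Field L] [CharP L p] [Algebra (ZMod p) L] :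
    IntermediateField (ZMod p) L :=
  { cst p a hp.out L with
    algebraMap_mem' := by
      intro c
      change algebraMap (ZMod p) L c ∈ cst p a hp.out L
      rw [mem_cst hp.out, ← map_pow, ZMod.pow_card_pow] }

theorem isCyclic_const {K L : Type} [Field K] [Field L] [Algebra K L] {p : ℕ} (hp : p.Prime)
    [CharP K p] {a : ℕ} (ha : 0 < a) {ω : L} (hω : ω ^ p ^ a = ω)
    (hadj : Algebra.adjoin K {ω} = ⊤) : IsCyclic (L ≃ₐ[K] L) := by
  have : Fact p.Prime := ⟨hp⟩
  have : CharP L p := charP_of_injective_algebraMap (algebraMap K L).injective p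
  let _ : Algebra (ZMod p) L := ZMod.algebra L p
  let _ : Algebra (ZMod p) K := ZMod.algebra K p
  have : IsScalarTower (ZMod p) K L := IsScalarTower.of_algebraMap_eq' (RingHom.ext_zmod _ _)
  have hfF : Finite (cstF p a L) := finite_cst hp ha
  have hωF : ω ∈ cstF p a L := (mem_cst hp).mpr hω
  let f : (L ≃ₐ[K] L) →* (cstF p a L ≃ₐ[ZMod p] cstF p a L) :=
    (AlgEquiv.restrictNormalHom (F := ZMod p) (K₁ := L) (cstF p a L)).comp
      (AlgEquiv.restrictScalarsHom (ZMod p))
  refine isCyclic_of_injective f fun τ ρ h => ext_of_adj hadj ?_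
  have h2 := congrArg (fun s : cstF p a L ≃ₐ[ZMod p] cstF p a L =>
    ((s ⟨ω, hωF⟩ : cstF p a L) : L)) h
  simp only [f, MonoidHom.comp_apply] at h2
  rw [AlgEquiv.restrictNormalHom_apply, AlgEquiv.restrictNormalHom_apply] at h2
  exact h2

theorem exists_gen_cst {L : Type} [Field L] {p a : ℕ} (hp : p.Prime) [CharP L p] (ha : 0 < a) :
    ∃ ω : L, ω ^ p ^ a = ω ∧ ∀ x : L, x ^ p ^ a = x → x ≠ 0 → ∃ j : ℕ, x = ω ^ j := by
  have hfc : Finite (cst p a hp L) := finite_cst hp ha
  obtain ⟨g, hg⟩ := IsCyclic.exists_generator (α := (cst p a hp L)ˣ)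
  refine ⟨((g : cst p a hp L) : L), (mem_cst hp).mp (g : cst p a hp L).2, ?_⟩
  intro x hx hx0
  let y : (cst p a hp L)ˣ :=
    Units.mk0 ⟨x, (mem_cst hp).mpr hx⟩ (fun h => hx0 (congrArg Subtype.val h))
  obtain ⟨j, hj⟩ := (mem_powers_iff_mem_zpowers.mpr (hg y))
  refine ⟨j, ?_⟩
  have h2 := congrArg (fun u : (cst p a hp L)ˣ => ((u : cst p a hp L) : L)) hj
  exact h2.symm

theorem exists_const_aux (K L : Type) [Field K] [Field L] [Algebra K L] {p : ℕ} (hp : p.Prime)
    [CharP K p] {a : ℕ} (ha : 0 < a) [IsSplittingField K L (X ^ p ^ a - X : K[X])] :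
    ∃ (σ : L ≃ₐ[K] L) (m : ℕ) (ω : L), Const p a K L σ m ω := by
  have hsep : (X ^ p ^ a - X : K[X]).Separable :=
    galois_poly_separable p (p ^ a) (dvd_pow_self p ha.ne')
  have hgal : IsGalois K L := IsGalois.of_separable_splitting_field hsep
  have hfin : FiniteDimensional K L :=
    IsSplittingField.finiteDimensional L (X ^ p ^ a - X : K[X])
  have : CharP L p := charP_of_injective_algebraMap (algebraMap K L).injective p
  have hsp : (X ^ p ^ a - X : L[X]).Splits := by
    rw [← map_poly (K := K) p a]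
    exact IsSplittingField.splits L _
  obtain ⟨ω, hωp, hωg⟩ := exists_gen_cst (L := L) hp ha
  have hadj : Algebra.adjoin K {ω} = ⊤ := by
    rw [eq_top_iff, ← IsSplittingField.adjoin_rootSet L (X ^ p ^ a - X : K[X]),
      Algebra.adjoin_le_iff]
    intro x hx
    have hx1 : x ^ p ^ a = x := by
      have h2 := (mem_rootSet.mp hx).2
      rwa [map_sub, map_pow, aeval_X, sub_eq_zero] at h2
    rcases eq_or_ne x 0 with rfl | hx0
    · exact Subalgebra.zero_mem _
    · obtain ⟨j, hj⟩ := hωg x hx1 hx0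
      rw [hj]
      exact Subalgebra.pow_mem _ (Algebra.subset_adjoin (Set.mem_singleton ω)) j
  have : IsCyclic (L ≃ₐ[K] L) := isCyclic_const hp ha hωp hadj
  have : Finite (L ≃ₐ[K] L) := inferInstance
  obtain ⟨σ, hσ⟩ := IsCyclic.exists_generator (α := L ≃ₐ[K] L)
  have hord : orderOf σ = finrank K L := by
    rw [orderOf_eq_card_of_forall_mem_zpowers hσ, IsGalois.card_aut_eq_finrank]
  refine ⟨σ, finrank K L, ω, ⟨hp, inferInstance, ha, hfin, hgal,
    Module.finrank_pos, rfl, hord, ?_, ?_, hsp, hωp, hωg, hadj⟩⟩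
  · intro τ
    obtain ⟨j, hj⟩ := mem_powers_iff_mem_zpowers.mpr (hσ τ)
    refine ⟨j % finrank K L, Nat.mod_lt _ Module.finrank_pos, ?_⟩
    rw [← hord, pow_mod_orderOf]
    exact hj.symm
  · intro x hx
    have h2 : ∀ τ : L ≃ₐ[K] L, τ x = x := by
      intro τ
      obtain ⟨j, hj⟩ := mem_powers_iff_mem_zpowers.mpr (hσ τ)
      rw [← hj]
      clear hj
      induction j with
      | zero => rfl
      | succ j ih =>
        change (σ ^ (j + 1)) x = x
        rw [pow_succ, AlgEquiv.mul_apply, hx]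
        exact ih
    exact (IsGalois.mem_range_algebraMap_iff_fixed x).mpr h2

/-- **The extension generated by the `p ^ a - 1`-th roots of unity.** -/
theorem exists_const (K : Type) [Field K] {p : ℕ} (hp : p.Prime) [CharP K p] {a : ℕ} (ha : 0 < a) :
    ∃ (L : Type) (_ : Field L) (_ : Algebra K L) (σ : L ≃ₐ[K] L) (m : ℕ) (ω : L),
      Const p a K L σ m ω :=
  ⟨(X ^ p ^ a - X : K[X]).SplittingField, inferInstance, inferInstance,
    exists_const_aux K _ hp ha⟩

end Vale.Agent.P011.H388.Odd
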