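import Vale.Agent.P011.H388.Odd.Const

/-!
The basis of constants, the lifting property and the element of trace one of a constant extension.
-/

open Module Polynomial IntermediateField

namespace Vale.Agent.P011.H388.Odd

namespace Const

variable {p a : ℕ} {K L : Type} [Field K] [Field L] [Algebra K L] {σ : L ≃ₐ[K] L} {m : ℕ} {ω : L}

theorem ne_zero (h : Const p a K L σ m ω) : a ≠ 0 := h.apos.ne'

theorem charL (h : Const p a K L σ m ω) : CharP L p := by
  have := h.char
  exact charP_of_injective_algebraMap (algebraMap K L).injective p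

theorem frob_add (h : Const p a K L σ m ω) (x y : L) :
    (x + y) ^ p ^ a = x ^ p ^ a + y ^ p ^ a := by
  have := h.charL
  have : Fact p.Prime := ⟨h.prime⟩
  exact add_pow_char_pow x y p a

theorem frob_sum (h : Const p a K L σ m ω) {ι : Type*} (s : Finset ι) (f : ι → L) :
    (∑ i ∈ s, f i) ^ p ^ a = ∑ i ∈ s, f i ^ p ^ a := by
  have := h.charL
  have : Fact p.Prime := ⟨h.prime⟩
  exact sum_pow_char_pow p a s f

theorem top (h : Const p a K L σ m ω) : K⟮ω⟯ = ⊤ := by
  have := h.fin
  have h1 : (K⟮ω⟯).toSubalgebra = (⊤ : IntermediateField K L).toSubalgebra := by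
    rw [IntermediateField.adjoin_simple_toSubalgebra_of_isAlgebraic
      (Algebra.IsAlgebraic.isAlgebraic ω), h.adj]
    rfl
  exact IntermediateField.toSubalgebra_injective h1

theorem natDegree (h : Const p a K L σ m ω) : (minpoly K ω).natDegree = m := by
  have := h.fin
  rw [← h.rank]
  exact (Field.primitive_element_iff_minpoly_natDegree_eq K ω).mp h.top

/-- The basis of the powers of `ω`. -/
theorem exists_basis (h : Const p a K L σ m ω) : ∃ b : Basis (Fin m) K L,
    (∀ i, b i = ω ^ (i : ℕ)) ∧ ∀ x : L, x ^ p ^ a = x → ∀ i, b.repr x i ^ p ^ a = b.repr x i := by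
  have := h.fin
  have hint : IsIntegral K ω := IsIntegral.of_finite K ω
  let pb := PowerBasis.ofAdjoinEqTop' hint h.adj
  have hgen : pb.gen = ω := PowerBasis.ofAdjoinEqTop'_gen hint h.adj
  have hdim : pb.dim = m := by
    rw [← h.rank]
    exact pb.finrank.symm
  let b : Basis (Fin m) K L := pb.basis.reindex (finCongr hdim)
  have hb : ∀ i, b i = ω ^ (i : ℕ) := by
    intro i
    rw [Basis.reindex_apply, pb.basis_eq_pow, hgen]
    rfl
  refine ⟨b, hb, fun x hx => ?_⟩
  have h1 : ∑ i, (b.repr x i ^ p ^ a) • b i = x := by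
    have h2 : x = ∑ i, b.repr x i • b i := (b.sum_repr x).symm
    have h3 : x ^ p ^ a = ∑ i, (b.repr x i ^ p ^ a) • b i := by
      conv_lhs => rw [h2]
      rw [h.frob_sum]
      refine Finset.sum_congr rfl fun i _ => ?_
      rw [_root_.smul_pow, hb, ← pow_mul, mul_comm, pow_mul, h.ωp]
    rw [← h3, hx]
  intro i
  have h4 := congrArg (fun z => b.repr z i) h1
  simp only [map_sum, map_smul, Basis.repr_self, Finsupp.smul_single, smul_eq_mul, mul_one] at h4
  rw [Finsupp.finsetSum_apply, Finset.sum_eq_single i] at h4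
  · rwa [Finsupp.single_eq_same] at h4
  · intro j _ hj
    rw [Finsupp.single_apply, if_neg hj]
  · intro hi
    exact absurd (Finset.mem_univ i) hi

/-- The lifting property. -/
theorem lift (h : Const p a K L σ m ω) {M : Type} [Field M] (φ : K →+* M)
    (hM : (X ^ p ^ a - X : M[X]).Splits) :
    ∃ ψ : L →+* M, ∀ c : K, ψ (algebraMap K L c) = φ c := by
  have := h.fin
  let _ : Algebra K M := φ.toAlgebra
  have hint : IsIntegral K ω := IsIntegral.of_finite K ω
  have h1 : minpoly K ω ∣ X ^ p ^ a - X := minpoly.dvd K ω (by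
    rw [map_sub, map_pow, aeval_X, h.ωp, sub_self])
  have hne : (X ^ p ^ a - X : M[X]) ≠ 0 :=
    FiniteField.X_pow_card_pow_sub_X_ne_zero M h.ne_zero h.prime.one_lt
  have h2 : (minpoly K ω).map (algebraMap K M) ∣ X ^ p ^ a - X := by
    have h3 := Polynomial.map_dvd (algebraMap K M) h1
    rwa [Polynomial.map_sub, Polynomial.map_pow, Polynomial.map_X] at h3
  have h4 := hM.of_dvd hne h2
  obtain ⟨α, hα⟩ := h4.exists_eval_eq_zero (by
    rw [Polynomial.degree_map]
    exact (minpoly.degree_pos hint).ne')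
  have h5 : aeval α (minpoly K (adjoin.powerBasis hint).gen) = 0 := by
    rw [adjoin.powerBasis_gen, minpoly_gen, aeval_def, ← eval_map]
    exact hα
  let ψ : L →ₐ[K] M := ((adjoin.powerBasis hint).lift α h5).comp
    ((equivOfEq h.top).symm.toAlgHom.comp (topEquiv (F := K) (E := L)).symm.toAlgHom)
  exact ⟨(ψ : L →+* M), fun c => ψ.commutes c⟩

theorem bij (h : Const p a K L σ m ω) :
    Function.Bijective fun i : Fin m => (σ ^ (i : ℕ) : L ≃ₐ[K] L) := by
  have := h.fin
  have := h.gal
  rw [Function.Bijective]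
  have hs : Function.Surjective fun i : Fin m => (σ ^ (i : ℕ) : L ≃ₐ[K] L) := by
    intro τ
    obtain ⟨i, hi, rfl⟩ := h.gen τ
    exact ⟨⟨i, hi⟩, rfl⟩
  refine ⟨?_, hs⟩
  have hc : Fintype.card (Fin m) = Fintype.card (L ≃ₐ[K] L) := by
    rw [Fintype.card_fin, ← Nat.card_eq_fintype_card, IsGalois.card_aut_eq_finrank, h.rank]
  exact ((Fintype.bijective_iff_surjective_and_card _).mpr ⟨hs, hc⟩).1

theorem trace_eq (h : Const p a K L σ m ω) (x : L) :
    algebraMap K L (Algebra.trace K L x) = ∑ i ∈ Finset.range m, (σ ^ i) x := by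
  have := h.fin
  have := h.gal
  rw [trace_eq_sum_automorphisms, ← Fin.sum_univ_eq_sum_range (fun i => (σ ^ i) x)]
  exact (Function.Bijective.sum_comp h.bij (fun τ : L ≃ₐ[K] L => τ x)).symm

theorem norm_eq (h : Const p a K L σ m ω) (x : L) :
    algebraMap K L (Algebra.norm K x) = ∏ i ∈ Finset.range m, (σ ^ i) x := by
  have := h.fin
  have := h.gal
  rw [Algebra.norm_eq_prod_automorphisms, ← Fin.prod_univ_eq_prod_range (fun i => (σ ^ i) x)]
  exact (Function.Bijective.prod_comp h.bij (fun τ : L ≃ₐ[K] L => τ x)).symm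

/-- An element of trace one which is a constant. -/
theorem exists_trace (h : Const p a K L σ m ω) : ∃ θ : L, θ ^ p ^ a = θ ∧
    Algebra.trace K L θ = 1 ∧ ∑ i ∈ Finset.range m, (σ ^ i) θ = 1 := by
  have := h.fin
  have := h.gal
  obtain ⟨b, hb, -⟩ := h.exists_basis
  obtain ⟨i, hi⟩ : ∃ i, Algebra.trace K L (b i) ≠ 0 := by
    by_contra hcon
    push Not at hcon
    refine Algebra.trace_ne_zero K L (b.ext fun i => ?_)
    rw [hcon i, LinearMap.zero_apply]
  obtain ⟨c, hc⟩ : ∃ c, c = Algebra.trace K L (b i) := ⟨_, rfl⟩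
  rw [← hc] at hi
  have hbi : (b i) ^ p ^ a = b i := by
    rw [hb, ← pow_mul, mul_comm, pow_mul, h.ωp]
  have hcp : c ^ p ^ a = c := by
    apply (algebraMap K L).injective
    rw [map_pow, hc, h.trace_eq, h.frob_sum]
    refine Finset.sum_congr rfl fun j _ => ?_
    rw [← map_pow, hbi]
  have ht : Algebra.trace K L (c⁻¹ • b i) = 1 := by
    rw [map_smul, ← hc, smul_eq_mul, inv_mul_cancel₀ hi]
  refine ⟨c⁻¹ • b i, ?_, ht, ?_⟩
  · rw [_root_.smul_pow, hbi, inv_pow, hcp]
  · rw [← h.trace_eq, ht, map_one]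

end Const

end Vale.Agent.P011.H388.Odd
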