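import Vale.Agent.P011.H388.Odd.Const
import Vale.Agent.P011.H112.Cst.LocU
import Vale.Agent.P011.H279.SplG

/-!
A central division algebra over a global function field is split by a constant extension.
-/

open Module Polynomial

namespace Vale.Agent.P011.H388.Odd

open Vale.Agent.P011.H738 Vale.Agent.P011.H271 Vale.Agent.P011.H305 Vale.Agent.P011.W
open Vale.Agent.P011.H279.Sq Vale.Agent.P011.H279.Art
open Vale.Agent.P011.H961 (SetG)

theorem X_pow_dvd {M : Type} [CommRing M] {p j a : ℕ} (hp : 0 < p) (h : j ∣ a) :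
    (X ^ p ^ j - X : M[X]) ∣ X ^ p ^ a - X := by
  obtain ⟨t, rfl⟩ := h
  have h1 : p ^ j - 1 ∣ p ^ (j * t) - 1 := by
    have h2 := Nat.sub_dvd_pow_sub_pow (p ^ j) 1 t
    rwa [one_pow, ← pow_mul] at h2
  obtain ⟨s, hs⟩ := h1
  have e1 : ∀ b : ℕ, (X ^ p ^ b - X : M[X]) = X * (X ^ (p ^ b - 1) - 1) := by
    intro b
    have h3 : p ^ b = (p ^ b - 1) + 1 := by
      have := Nat.pow_pos (n := b) hp
      omega
    conv_lhs => rw [h3]
    ring
  rw [e1, e1]
  refine mul_dvd_mul_left _ ?_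
  rw [hs, pow_mul]
  have h4 := sub_dvd_pow_sub_pow (X ^ (p ^ j - 1) : M[X]) 1 s
  rwa [one_pow] at h4

theorem splits_dvd {M : Type} [Field M] {p j a : ℕ} (hp : p.Prime) (ha : 0 < a) (h : j ∣ a)
    (hs : (X ^ p ^ a - X : M[X]).Splits) : (X ^ p ^ j - X : M[X]).Splits :=
  hs.of_dvd (FiniteField.X_pow_card_pow_sub_X_ne_zero M ha.ne' hp.one_lt) (X_pow_dvd hp.pos h)

theorem splits_map {L M : Type} [Field L] [Field M] (f : L →+* M) {p a : ℕ}
    (hs : (X ^ p ^ a - X : L[X]).Splits) : (X ^ p ^ a - X : M[X]).Splits := by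
  have h1 := hs.map f
  rwa [Polynomial.map_sub, Polynomial.map_pow, map_X] at h1

variable {k K D : Type} [Field k] [Field K] [StarRing K] [DivisionRing D] [StarRing D]
  [Algebra k K] [Algebra k D] [Algebra K D] [IsScalarTower k K D] {n : ℕ}

/-- **A constant extension splits.** -/
theorem exists_spl_const [GFF k] (hS : SetG k K D) (hdeg : finrank K D = n ^ 2) {p : ℕ}
    (hp : p.Prime) [CharP k p] :
    ∃ a₀ : ℕ, 0 < a₀ ∧ ∀ a : ℕ, 0 < a → a₀ ∣ a → ∀ (L : Type) [Field L] [Algebra K L]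
      [FiniteDimensional K L], (X ^ p ^ a - X : L[X]).Splits → Spl D n (algebraMap K L) := by
  classical
  have := hS.fin
  have := hS.cen
  have := hS.finK
  have hn : n ≠ 0 := (deg_pos hdeg).ne'
  have hbf := bad_finiteG hS hn hdeg
  have hloc : ∀ (v : Place k) (ι : K →ₐ[k] v.comp), ∃ j : ℕ, 0 < j ∧ ∀ (M : Type) [Field M]
      (φ : v.comp →+* M), (X ^ p ^ j - X : M[X]).Splits → Spl D n (φ.comp (ι : K →+* v.comp)) := by
    intro v ι
    have : CharP v.comp p := charP_of_injective_algebraMap (algebraMap k v.comp).injective p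
    let _ : NontriviallyNormedField v.comp := nnfPlace v
    exact H112.Cst.exists_spl_fin hdeg hp (ι : K →+* v.comp)
  choose j hj0 hj using hloc
  have hfinh : ∀ v : Place k, Finite (K →ₐ[k] v.comp) := fun v => inferInstance
  choose ft _hft using fun v : Place k => (⟨Fintype.ofFinite (K →ₐ[k] v.comp), trivial⟩ :
    ∃ _ : Fintype (K →ₐ[k] v.comp), True)
  refine ⟨∏ v ∈ hbf.toFinset, ∏ ι ∈ (ft v).elems, j v ι,
    Finset.prod_pos fun v _ => Finset.prod_pos fun ι _ => hj0 v ι, ?_⟩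
  intro a ha hdvd L _ _ _ hsp
  let _ : Algebra k L := ((algebraMap K L).comp (algebraMap k K)).toAlgebra
  have : IsScalarTower k K L := IsScalarTower.of_algebraMap_eq fun x => rfl
  have : FiniteDimensional k L := Module.Finite.trans K L
  have : GFF L := Hey.H63.gff_of_finite (k := k)
  refine spl_of_local hdeg L fun W => spl_placeG hS hdeg L W fun v ι φ hv _ => ?_
  refine hj v ι W.comp φ (splits_dvd hp ha (dvd_trans ?_ hdvd) (splits_map (algebraMap L W.comp) hsp))
  exact dvd_trans (Finset.dvd_prod_of_mem _ ((ft v).complete ι))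
    (Finset.dvd_prod_of_mem (fun v => ∏ ι ∈ (ft v).elems, j v ι) (hbf.mem_toFinset.mpr hv))

end Vale.Agent.P011.H388.Odd
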