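import Vale.Agent.P011.H388.Odd.ConstB
import Vale.Agent.P011.H388.Odd.ConstSplit
import Vale.Agent.P011.H112.Cst.UnitN
import Vale.Agent.P011.H704.HQ.ModAe

/-!
The constant extension of the centre of a division algebra with involution over a global function
field: cyclic, splitting, every unit is a local norm, and places at which it is split.
-/

open Module Polynomial

namespace Vale.Agent.P011.H388.Odd

open Vale.Agent.P011.H738 Vale.Agent.P011.H271 Vale.Agent.P011.H305 Vale.Agent.P011.W
open Vale.Agent.P011.H961 (SetG)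

/-- **The constant extension.** -/
theorem exists_const_main {k K D : Type} [Field k] [GFF k] [Field K] [StarRing K] [DivisionRing D]
    [StarRing D] [Algebra k K] [Algebra k D] [Algebra K D] [IsScalarTower k K D] {n : ℕ}
    (hS : SetG k K D) (hdeg : finrank K D = n ^ 2) :
    ∃ (p a : ℕ) (L : Type) (_ : Field L) (_ : Algebra K L) (m : ℕ) (b : Basis (Fin m) K L)
      (σ : L ≃ₐ[K] L) (ω θ : L), Const p a K L σ m ω ∧ CharP k p ∧ (∀ i, b i = ω ^ (i : ℕ)) ∧
      (∀ x : L, x ^ p ^ a = x → ∀ i, b.repr x i ^ p ^ a = b.repr x i) ∧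
      θ ^ p ^ a = θ ∧ Algebra.trace K L θ = 1 ∧ ∑ i ∈ Finset.range m, (σ ^ i) θ = 1 ∧
      Spl D n (algebraMap K L) ∧
      (∀ (R : Type) [NormedField R] [IsUltrametricDist R] [ProperSpace R] (φ : K →+* R) (x : R),
        ‖x‖ = 1 → ∃ y : Fin m → R,
          (∑ i, y i • (Algebra.leftMulMatrix b (b i)).map φ).det = x) ∧
      (∀ (R : Type) [Field R] (φ : K →+* R), (X ^ p ^ a - X : R[X]).Splits → ∀ x : R,
        ∃ y : Fin m → R, (∑ i, y i • (Algebra.leftMulMatrix b (b i)).map φ).det = x) ∧
      ∀ T : Finset (Place k), ∃ v ∉ T, Nonempty (K →ₐ[k] v.comp) ∧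
        (X ^ p ^ a - X : v.comp[X]).Splits ∧
        ∀ ι : K →ₐ[k] v.comp, Spl D n (ι : K →+* v.comp) ∧
          ∃ ψ : L →+* v.comp, ∀ c : K, ψ (algebraMap K L c) = ι c := by
  have := hS.fin
  have := hS.cen
  have := hS.finK
  have hsK := hS.sep
  -- the characteristic
  obtain ⟨F, _, _, φ0, _⟩ := (inferInstance : GFF k).out
  obtain ⟨p, hpF⟩ := CharP.exists F
  have hp : p.Prime := by
    rcases CharP.char_is_prime_or_zero F p with h | h
    · exact h
    · subst h
      have := CharP.charP_to_charZero F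
      exact (not_finite_iff_infinite.mpr (inferInstance : Infinite F) inferInstance).elim
  have : CharP (RatFunc F) p :=
    charP_of_injective_algebraMap (algebraMap F (RatFunc F)).injective p
  have hk : CharP k p := (RingHom.charP_iff φ0 φ0.injective p).mp inferInstance
  have : CharP K p := charP_of_injective_algebraMap (algebraMap k K).injective p
  obtain ⟨a, ha0, ha⟩ := exists_spl_const hS hdeg hp
  obtain ⟨L, _, _, σ, m, ω, h⟩ := exists_const K hp ha0
  have := h.fin
  have := h.gal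
  obtain ⟨b, hb, hbc⟩ := h.exists_basis
  obtain ⟨θ, hθ1, hθ2, hθ3⟩ := h.exists_trace
  have hspl : Spl D n (algebraMap K L) := ha a ha0 dvd_rfl L h.split
  have hfp : Fact p.Prime := ⟨hp⟩
  refine ⟨p, a, L, inferInstance, inferInstance, m, b, σ, ω, θ, h, hk, hb, hbc, hθ1, hθ2, hθ3,
    hspl, ?_, ?_, ?_⟩
  · intro R _ _ _ φ x hx
    exact H112.Cst.exists_nf_unit h.ne_zero h.ωp h.top b φ hx
  · intro R _ φ hR x
    obtain ⟨ψ, hψ⟩ := h.lift φ hR
    exact H112.Cst.exists_nf_split b φ ψ hψ x
  · intro T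
    let _ : Algebra k L := ((algebraMap K L).comp (algebraMap k K)).toAlgebra
    have : IsScalarTower k K L := IsScalarTower.of_algebraMap_eq fun x => rfl
    have : FiniteDimensional k L := Module.Finite.trans K L
    have : Algebra.IsSeparable k L := Algebra.IsSeparable.trans k K L
    obtain ⟨v, hv, ⟨χ⟩⟩ := H704.HQ.exists_hom_place (k := k) (E := L) T
    have hsp : (X ^ p ^ a - X : v.comp[X]).Splits := splits_map (χ : L →+* v.comp) h.split
    refine ⟨v, hv, ⟨χ.comp (IsScalarTower.toAlgHom k K L)⟩, hsp, fun ι => ?_⟩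
    obtain ⟨ψ, hψ⟩ := h.lift (ι : K →+* v.comp) hsp
    refine ⟨?_, ψ, hψ⟩
    have h1 := hspl.comp ψ
    have h2 : ψ.comp (algebraMap K L) = (ι : K →+* v.comp) := RingHom.ext hψ
    rwa [h2] at h1

end Vale.Agent.P011.H388.Odd
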